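import Vale.Agent.P066.Overlap2.Class

/-! P066: Shareshian–Wachs positivity when consecutive maximal cliques share at most two vertices. -/

open Polynomial

namespace Vale.Agent.Results.P066.CliquesShareTwo

open Vale.Agent.P066

theorem result (n : ℕ) (h : Fin n → ℕ) (hmono : Monotone h)
    (hshare : ∀ i j : Fin n, i < j → h i < h j → h i ≤ (j : ℕ) + 2) :
    ∃ c : Nat.Partition n → ℕ[X], ∀ N : ℕ, chromQ n h N =
      ∑ μ : Nat.Partition n,
        MvPolynomial.C ((c μ).map (Nat.castRingHom ℤ)) * MvPolynomial.esymmPart (Fin N) ℤ[X] μ :=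
  Overlap2.chromQ_epositive n h hmono hshare

end Vale.Agent.Results.P066.CliquesShareTwo
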