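import Vale.Agent.P066.Family

open Finset Polynomial
open Vale.Agent.P066

namespace Vale.Agent.Results.P066.TwinMoveClass

/-- `q`-positivity of elementary coefficients for graphs whose quotient is reducible, and an
infinite family of such graphs outside the abelian class. -/
theorem result :
    (∀ (n l : ℕ) (h : Fin n → ℕ) (π : Fin n → Fin l) (E : Fin l → Fin l → Prop),
      (∀ i j, Edge h i j ↔ (π i = π j ∧ i < j) ∨ E (π i) (π j)) →
      Reducible (fun a => (univ.filter fun i => π i = a).card) E →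
      ∃ c : Nat.Partition n → ℕ[X], ∀ N : ℕ, chromQ n h N =
        ∑ μ : Nat.Partition n, MvPolynomial.C ((c μ).map (Nat.castRingHom ℤ)) *
          MvPolynomial.esymmPart (Fin N) ℤ[X] μ) ∧
    (∀ a b d e : ℕ, 1 ≤ a → 1 ≤ b → 1 ≤ d → 1 ≤ e →
      (Monotone (gluedH a b d e) ∧
        (∀ i : Fin (a + b + 1 + d + e),
          (i : ℕ) + 1 ≤ gluedH a b d e i ∧ gluedH a b d e i ≤ a + b + 1 + d + e) ∧
        (∃ x y z : Fin (a + b + 1 + d + e), x < y ∧ y < z ∧ ¬Edge (gluedH a b d e) x y ∧
          ¬Edge (gluedH a b d e) x z ∧ ¬Edge (gluedH a b d e) y z)) ∧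
      ∃ c : Nat.Partition (a + b + 1 + d + e) → ℕ[X], ∀ N : ℕ,
        chromQ (a + b + 1 + d + e) (gluedH a b d e) N =
        ∑ μ : Nat.Partition (a + b + 1 + d + e),
          MvPolynomial.C ((c μ).map (Nat.castRingHom ℤ)) *
            MvPolynomial.esymmPart (Fin N) ℤ[X] μ) := by
  refine ⟨fun n l h π E hblow hred => ?_, fun a b d e ha hb hd he => ⟨⟨?_, ?_, ?_⟩, ?_⟩⟩
  · refine chromQ_epositive hblow ?_
    convert hred using 3
    rfl
  · intro i j hij
    have hij' : (i : ℕ) ≤ j := hij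
    unfold gluedH
    split_ifs <;> omega
  · intro i
    have := i.2
    unfold gluedH
    split_ifs <;> omega
  · refine ⟨⟨0, by omega⟩, ⟨a + b, by omega⟩, ⟨a + b + d + e, by omega⟩, ?_, ?_, ?_, ?_, ?_⟩ <;>
      simp only [Edge, gluedH, Fin.mk_lt_mk] <;> (try split_ifs) <;> omega
  · exact gluedH_epositive a b d e (by omega)

end Vale.Agent.Results.P066.TwinMoveClass
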